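import Vale.Agent.Lib.P371S.Sobolev
import Vale.Agent.Lib.P371.Gen.Final
import Vale.Agent.Lib.P371.LowerOne

/-! # P371, second statement: comparison with the first one -/

open MeasureTheory Set Filter Topology
open scoped ComplexOrder ContDiff InnerProductSpace ENNReal
open Vale.Agent.P371 (IsH1 app trPow potInt IsPotential IsEigenfunction IsNegEigenSystem negMoment
  LT Lcl Lone LTone)

namespace Vale.Agent.P371S

variable {m : ℕ}

theorem trPow_eq {M : Matrix (Fin m) (Fin m) ℂ} (hM : M.PosSemidef) (p : ℝ) :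
    (cfc (fun t : ℝ => t ^ p) M).trace.re = trPow p M := by
  rw [hM.isHermitian.cfc_eq, Matrix.IsHermitian.cfc, Unitary.conjStarAlgAut_apply,
    Matrix.trace_mul_comm, ← mul_assoc]
  unfold trPow
  rw [dif_pos hM.isHermitian]
  simp [Matrix.trace_diagonal]

theorem isPotential {p : ℝ} {W : ℝ → Matrix (Fin m) (Fin m) ℂ} (hW : IsPot p W) :
    IsPotential p W := by
  refine ⟨hW.1, hW.2.1, ?_⟩
  have h := hW.2.2
  simp_rw [trPow_eq (hW.2.1 _)] at h
  exact h.lintegral_lt_top.ne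

theorem isPot {p : ℝ} (hp : 0 ≤ p) {W : ℝ → Matrix (Fin m) (Fin m) ℂ} (hW : IsPotential p W) :
    IsPot p W := by
  refine ⟨hW.measurable, hW.posSemidef, ?_⟩
  simp_rw [trPow_eq (hW.posSemidef _)]
  exact hW.integrable hp

theorem trInt_eq {p : ℝ} {W : ℝ → Matrix (Fin m) (Fin m) ℂ} (hW : IsPot p W) :
    trInt p W = ∫ x, trPow p (W x) := by
  unfold trInt
  simp_rw [trPow_eq (hW.2.1 _)]

theorem potInt_eq {p : ℝ} {W : ℝ → Matrix (Fin m) (Fin m) ℂ} (hW : IsPot p W) :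
    potInt p W = ENNReal.ofReal (trInt p W) := by
  have h := hW.2.2
  simp_rw [trPow_eq (hW.2.1 _)] at h
  rw [trInt_eq hW, ofReal_integral_eq_lintegral_ofReal h
      (Eventually.of_forall fun x => Vale.Agent.P371.trPow_nonneg (hW.2.1 x) _)]
  rfl

theorem inner_app_eq (M : Matrix (Fin m) (Fin m) ℂ) (u v : EuclideanSpace ℂ (Fin m)) :
    ∑ i, ∑ j, star (u i) * M i j * v j = ⟪u, app M v⟫_ℂ := by
  rw [PiLp.inner_apply]
  refine Finset.sum_congr rfl fun i _ => ?_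
  rw [RCLike.inner_apply']
  change _ = star (u i) * ∑ j, M i j * v j
  rw [Finset.mul_sum]
  refine Finset.sum_congr rfl fun j _ => ?_
  ring

/-- from classes to functions. -/
theorem exists_eigenfunction {W : ℝ → Matrix (Fin m) (Fin m) ℂ} {lam : ℝ} {ψ : L2 m}
    (h : InKernel W lam ψ) : ∃ f f' : ℝ → EuclideanSpace ℂ (Fin m),
      IsEigenfunction W lam f f' ∧ f =ᵐ[volume] ψ := by
  obtain ⟨η, hη, hψ⟩ := h
  obtain ⟨f, hf, hfψ⟩ := exists_isH1 hη
  refine ⟨f, η, ⟨hf, fun g g' hg => ?_⟩, hfψ⟩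
  have h1 := hψ _ _ (weakDeriv_of_isH1 hg)
  unfold ip potForm at h1
  rw [L2.inner_def, L2.inner_def] at h1
  have e1 : ∫ x, ⟪(hg.memLp_deriv.toLp g') x, η x⟫_ℂ = ∫ x, ⟪g' x, η x⟫_ℂ :=
    integral_congr_ae (by
      filter_upwards [hg.memLp_deriv.coeFn_toLp] with x hx
      rw [hx])
  have e2 : ∫ x, ∑ i, ∑ j, star ((hg.memLp.toLp g) x i) * W x i j * ψ x j
      = ∫ x, ⟪g x, app (W x) (f x)⟫_ℂ :=
    integral_congr_ae (by
      filter_upwards [hg.memLp.coeFn_toLp, hfψ] with x hx hx'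
      rw [hx, ← hx', inner_app_eq])
  have e3 : ∫ x, ⟪(hg.memLp.toLp g) x, ψ x⟫_ℂ = ∫ x, ⟪g x, f x⟫_ℂ :=
    integral_congr_ae (by
      filter_upwards [hg.memLp.coeFn_toLp, hfψ] with x hx hx'
      rw [hx, ← hx'])
  rw [e1, e2, e3] at h1
  exact h1

/-- from functions to classes. -/
theorem inKernel {W : ℝ → Matrix (Fin m) (Fin m) ℂ} {lam : ℝ}
    {f f' : ℝ → EuclideanSpace ℂ (Fin m)} (h : IsEigenfunction W lam f f') :
    InKernel W lam (h.1.memLp.toLp f) := by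
  refine ⟨h.1.memLp_deriv.toLp f', weakDeriv_of_isH1 h.1, fun χ ξ hχ => ?_⟩
  obtain ⟨g, hg, hgχ⟩ := exists_isH1 hχ
  have h1 := h.2 g ξ hg
  unfold ip potForm
  rw [L2.inner_def, L2.inner_def]
  have e1 : ∫ x, ⟪ξ x, (h.1.memLp_deriv.toLp f') x⟫_ℂ = ∫ x, ⟪ξ x, f' x⟫_ℂ :=
    integral_congr_ae (by
      filter_upwards [h.1.memLp_deriv.coeFn_toLp] with x hx
      rw [hx])
  have e2 : ∫ x, ∑ i, ∑ j, star (χ x i) * W x i j * (h.1.memLp.toLp f) x j
      = ∫ x, ⟪g x, app (W x) (f x)⟫_ℂ :=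
    integral_congr_ae (by
      filter_upwards [h.1.memLp.coeFn_toLp, hgχ] with x hx hx'
      rw [hx, hx', inner_app_eq])
  have e3 : ∫ x, ⟪χ x, (h.1.memLp.toLp f) x⟫_ℂ = ∫ x, ⟪g x, f x⟫_ℂ :=
    integral_congr_ae (by
      filter_upwards [h.1.memLp.coeFn_toLp, hgχ] with x hx hx'
      rw [hx, hx'])
  rw [e1, e2, e3]
  exact h1

/-- from orthonormal systems of classes to systems of functions. -/
theorem isNegEigenSystem {W : ℝ → Matrix (Fin m) (Fin m) ℂ} {N : ℕ} {lam : Fin N → ℝ}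
    {ψ : Fin N → L2 m} (ho : Orthonormal ℂ ψ) (h : ∀ j, lam j < 0 ∧ InKernel W (lam j) (ψ j)) :
    IsNegEigenSystem W N lam := by
  choose f f' hf hfψ using fun j => exists_eigenfunction (h j).2
  refine ⟨fun j => (h j).1, f, f', hf, fun i j => ?_⟩
  rw [← orthonormal_iff_ite.1 ho i j, L2.inner_def]
  refine integral_congr_ae ?_
  filter_upwards [hfψ i, hfψ j] with x h1 h2
  rw [h1, h2]

/-- from systems of functions to orthonormal systems of classes. -/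
theorem exists_orthonormal {W : ℝ → Matrix (Fin m) (Fin m) ℂ} {N : ℕ} {lam : Fin N → ℝ}
    (h : IsNegEigenSystem W N lam) : ∃ ψ : Fin N → L2 m, Orthonormal ℂ ψ ∧
      ∀ j, lam j < 0 ∧ InKernel W (lam j) (ψ j) := by
  obtain ⟨hneg, f, f', hf, ho⟩ := h
  refine ⟨fun j => (hf j).1.memLp.toLp (f j), ?_, fun j => ⟨hneg j, inKernel (hf j)⟩⟩
  rw [orthonormal_iff_ite]
  intro i j
  rw [L2.inner_def, ← ho i j]
  refine integral_congr_ae ?_
  filter_upwards [(hf i).1.memLp.coeFn_toLp, (hf j).1.memLp.coeFn_toLp] with x h1 h2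
  rw [h1, h2]

end Vale.Agent.P371S
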