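import Vale.Agent.Lib.P371S.Bridge

/-! # P371, second statement: the least constants -/

open MeasureTheory Set Filter Topology
open scoped ComplexOrder ContDiff InnerProductSpace ENNReal
open Vale.Agent.P371 (IsH1 app trPow potInt IsPotential IsEigenfunction IsNegEigenSystem negMoment
  LT Lcl Lone LTone)

namespace Vale.Agent.P371S

variable {m : ℕ}

theorem Lone_pos {γ : ℝ} (h0 : 1 / 2 < γ) : 0 < Lone γ := by
  unfold Lone Lcl
  have h1 : 0 < Real.Gamma (γ + 1) := Real.Gamma_pos_of_pos (by linarith)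
  have h2 : 0 < Real.Gamma (γ + 3 / 2) := Real.Gamma_pos_of_pos (by linarith)
  have h3 : 0 < (γ - 1 / 2) / (γ + 1 / 2) := div_pos (by linarith) (by linarith)
  positivity

theorem sum_le {γ : ℝ} (h0 : 1 / 2 < γ) (h1 : γ < 3 / 2) {W : ℝ → Matrix (Fin m) (Fin m) ℂ}
    (hW : IsPot (γ + 1 / 2) W) {N : ℕ} {lam : Fin N → ℝ} (h : IsNegEigenSystem W N lam) :
    ∑ j, |lam j| ^ γ ≤ Lone γ * trInt (γ + 1 / 2) W := by
  obtain ⟨θ, rfl⟩ : ∃ θ, γ = θ + 1 / 2 := ⟨γ - 1 / 2, by ring⟩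
  have hθ0 : 0 < θ := by linarith
  have hθ1 : θ < 1 := by linarith
  have hp : θ + 1 / 2 + 1 / 2 = 1 + θ := by ring
  rw [hp] at hW ⊢
  have h2 := P371.Gen.eig_sum_le hθ0 hθ1 (isPotential hW) h
  have hII := P371.Gen.II_pos hθ0
  rw [trInt_eq hW, ← P371.Gen.cp_div hθ0, div_mul_eq_mul_div, le_div_iff₀ (by linarith)]
  linarith

theorem mem_LT {γ : ℝ} (h0 : 1 / 2 < γ) (h1 : γ < 3 / 2) (m : ℕ) :
    Lone γ ∈ LTConstants γ m := fun _ hW _ _ _ ho h =>
  sum_le h0 h1 hW (isNegEigenSystem ho h)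

theorem mem_one {γ : ℝ} (h0 : 1 / 2 < γ) (h1 : γ < 3 / 2) :
    Lone γ ∈ OneStateConstants γ := by
  intro W hW lam ψ hψ hlam hk
  have ho : Orthonormal ℂ (fun _ : Fin 1 => ψ) := by
    rw [orthonormal_iff_ite]
    intro i j
    rw [if_pos (Subsingleton.elim i j), inner_self_eq_norm_sq_to_K, hψ]
    simp
  have h := sum_le h0 h1 hW (isNegEigenSystem (lam := fun _ : Fin 1 => lam) ho
    fun _ => ⟨hlam, hk⟩)
  simpa using h

theorem le_of_ofReal {γ C : ℝ} (h0 : 1 / 2 < γ) (h : ENNReal.ofReal (Lone γ) ≤ ENNReal.ofReal C) :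
    Lone γ ≤ C := by
  rcases ENNReal.ofReal_le_ofReal_iff'.1 h with h1 | h1
  · exact h1
  · exact absurd h1 (not_le.2 (Lone_pos h0))

theorem trInt_pos {p : ℝ} {W : ℝ → Matrix (Fin m) (Fin m) ℂ} (hW : IsPot p W)
    (hne : potInt p W ≠ 0) : 0 < trInt p W := by
  rw [potInt_eq hW] at hne
  by_contra h
  exact hne (ENNReal.ofReal_of_nonpos (not_lt.1 h))

theorem le_mem_LT {γ C : ℝ} (h0 : 1 / 2 < γ) (hm : 1 ≤ m) (hC : C ∈ LTConstants γ m) :
    Lone γ ≤ C := by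
  refine le_of_ofReal h0 ((Vale.Agent.P371.Lone_le_LT h0 hm).trans ?_)
  unfold P371.LT
  refine iSup_le fun W => iSup_le fun hW => iSup_le fun hne => ?_
  have hW' : IsPot (γ + 1 / 2) W := isPot (by linarith) hW
  have hpos := trInt_pos hW' hne
  have hC0 : 0 ≤ C := by
    have h := hC W hW' 0 (fun i => i.elim0) (fun i => i.elim0)
      ⟨fun i => i.elim0, fun i => i.elim0⟩ (fun i => i.elim0)
    simp only [Finset.univ_eq_empty, Finset.sum_empty] at h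
    exact nonneg_of_mul_nonneg_left h hpos
  refine ENNReal.div_le_of_le_mul ?_
  unfold negMoment
  refine iSup_le fun n => iSup_le fun lam => iSup_le fun h => ?_
  obtain ⟨ψ, ho, hk⟩ := exists_orthonormal h
  have h2 := hC W hW' n lam ψ ho hk
  rw [potInt_eq hW', ← ENNReal.ofReal_mul hC0,
    ← ENNReal.ofReal_sum_of_nonneg (fun j _ => Real.rpow_nonneg (abs_nonneg _) _)]
  exact ENNReal.ofReal_le_ofReal h2

theorem le_mem_one {γ C : ℝ} (h0 : 1 / 2 < γ) (hC : C ∈ OneStateConstants γ) : Lone γ ≤ C := by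
  refine le_of_ofReal h0 ((Vale.Agent.P371.Lone_le_LTone h0).trans ?_)
  unfold LTone
  refine iSup_le fun W => iSup_le fun hW => iSup_le fun hne => iSup_le fun lam => iSup_le fun h => ?_
  have hW' : IsPot (γ + 1 / 2) W := isPot (by linarith) hW
  have hpos := trInt_pos hW' hne
  obtain ⟨ψ, ho, hk⟩ := exists_orthonormal h
  have h2 := hC W hW' (lam 0) (ψ 0) (ho.1 0) (hk 0).1 (hk 0).2
  have hC0 : 0 ≤ C :=
    nonneg_of_mul_nonneg_left ((Real.rpow_nonneg (abs_nonneg _) _).trans h2) hpos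
  refine ENNReal.div_le_of_le_mul ?_
  rw [potInt_eq hW', ← ENNReal.ofReal_mul hC0]
  exact ENNReal.ofReal_le_ofReal h2

theorem isLeast_LT {γ : ℝ} (h0 : 1 / 2 < γ) (h1 : γ < 3 / 2) (hm : 1 ≤ m) :
    IsLeast (LTConstants γ m) (Lone γ) :=
  ⟨mem_LT h0 h1 m, fun _ hC => le_mem_LT h0 hm hC⟩

theorem isLeast_one {γ : ℝ} (h0 : 1 / 2 < γ) (h1 : γ < 3 / 2) :
    IsLeast (OneStateConstants γ) (Lone γ) :=
  ⟨mem_one h0 h1, fun _ hC => le_mem_one h0 hC⟩

end Vale.Agent.P371S
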