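import Vale.Agent.Lib.P371S.Weak

/-! # P371, second statement: `H¹` by weak derivatives and by primitives -/

open MeasureTheory Set Filter Topology
open scoped ComplexOrder ContDiff InnerProductSpace
open Vale.Agent.P371 (HasW IsH1)

namespace Vale.Agent.P371S

variable {m : ℕ}

/-- a test function of integral zero has a primitive that is a test function. -/
theorem exists_primitive {G : ℝ → ℝ} (hG : ContDiff ℝ ∞ G) (hs : HasCompactSupport G)
    (h0 : ∫ x, G x = 0) :
    ∃ Φ : ℝ → ℝ, ContDiff ℝ ∞ Φ ∧ HasCompactSupport Φ ∧ deriv Φ = G := by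
  obtain ⟨R, hR, hz⟩ := exists_interval hs
  have hder : ∀ x, HasDerivAt (fun x => ∫ t in (-R)..x, G t) (G x) x := fun x =>
    intervalIntegral.integral_hasDerivAt_right (hG.continuous.intervalIntegrable _ _)
      (hG.continuous.stronglyMeasurableAtFilter _ _) hG.continuous.continuousAt
  have hd : deriv (fun x => ∫ t in (-R)..x, G t) = G := funext fun x => (hder x).deriv
  refine ⟨fun x => ∫ t in (-R)..x, G t, ?_, ?_, hd⟩
  · rw [contDiff_infty_iff_deriv, hd]
    exact ⟨fun x => (hder x).differentiableAt, hG⟩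
  · refine HasCompactSupport.of_support_subset_isCompact (isCompact_Icc (a := -R) (b := R)) ?_
    intro x hx
    by_contra hx'
    refine hx ?_
    change ∫ t in (-R)..x, G t = 0
    rcases lt_or_ge x (-R) with h | h
    · refine intervalIntegral.integral_zero_ae (Eventually.of_forall fun t ht => ?_)
      rw [uIoc_of_ge h.le] at ht
      exact (hz t fun h' => by linarith [h'.1, ht.2]).1
    · have h2 : R < x := by
        by_contra h3
        exact hx' ⟨h, not_lt.1 h3⟩
      rw [← h0, intervalIntegral.integral_of_le h]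
      refine setIntegral_eq_integral_of_forall_compl_eq_zero fun t ht => ?_
      refine (hz t fun h' => ht ⟨h'.1, ?_⟩).1
      linarith [h'.2]

theorem const_of_deriv_zero {E : Type*} [NormedAddCommGroup E] [NormedSpace ℝ E]
    [CompleteSpace E] {u : ℝ → E} (hu : LocallyIntegrable u volume)
    (h : ∀ φ : ℝ → ℝ, ContDiff ℝ ∞ φ → HasCompactSupport φ → ∫ x, deriv φ x • u x = 0) :
    ∃ c : E, ∀ᵐ x, u x = c := by
  let b : ContDiffBump (0 : ℝ) := ⟨1, 2, one_pos, one_lt_two⟩
  let χ : ℝ → ℝ := b.normed volume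
  have hχc : ContDiff ℝ ∞ χ := b.contDiff_normed
  have hχs : HasCompactSupport χ := b.hasCompactSupport_normed
  have hχ1 : ∫ x, χ x = 1 := b.integral_normed
  have hχi : Integrable χ := hχc.continuous.integrable_of_hasCompactSupport hχs
  refine ⟨∫ x, χ x • u x, ?_⟩
  have hcl : LocallyIntegrable (fun _ : ℝ => ∫ x, χ x • u x) volume := locallyIntegrable_const _
  refine ae_eq_of_integral_contDiff_smul_eq hu hcl fun g hg hgs => ?_
  have hgi : Integrable g := hg.continuous.integrable_of_hasCompactSupport hgs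
  set a : ℝ := ∫ x, g x with ha
  have hGc : ContDiff ℝ ∞ (fun x => g x - a * χ x) := hg.sub (contDiff_const.mul hχc)
  have hGs : HasCompactSupport (fun x => g x - a * χ x) := hgs.sub hχs.mul_left
  have hG0 : ∫ x, (g x - a * χ x) = 0 := by
    rw [integral_sub hgi (hχi.const_mul a), integral_const_mul, hχ1, ← ha]
    ring
  obtain ⟨Φ, hΦc, hΦs, hΦd⟩ := exists_primitive hGc hGs hG0
  have h1 := h Φ hΦc hΦs
  rw [hΦd] at h1
  have I1 : Integrable (fun x => g x • u x) := integrable_test hu hg.continuous hgs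
  have I2 : Integrable (fun x => χ x • u x) := integrable_test hu hχc.continuous hχs
  have h2 : ∫ x, (g x - a * χ x) • u x = (∫ x, g x • u x) - a • ∫ x, χ x • u x := by
    have I3 : Integrable (fun x => a • (χ x • u x)) := I2.smul a
    rw [← integral_smul, ← integral_sub I1 I3]
    congr 1
    funext x
    rw [sub_smul, mul_smul]
  rw [h2] at h1
  rw [integral_smul_const, ← ha]
  exact sub_eq_zero.1 h1

theorem weakDeriv_of_isH1 {f f' : ℝ → EuclideanSpace ℂ (Fin m)} (hf : IsH1 f f') :
    WeakDeriv (hf.memLp.toLp f) (hf.memLp_deriv.toLp f') := by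
  intro φ hφ hs
  have h1 : ∫ x, deriv φ x • (hf.memLp.toLp f) x = ∫ x, deriv φ x • f x :=
    integral_congr_ae (by
      filter_upwards [hf.memLp.coeFn_toLp] with x hx
      rw [hx])
  have h2 : ∫ x, φ x • (hf.memLp_deriv.toLp f') x = ∫ x, φ x • f' x :=
    integral_congr_ae (by
      filter_upwards [hf.memLp_deriv.coeFn_toLp] with x hx
      rw [hx])
  rw [h1, h2]
  exact ibp_vec hf.locallyIntegrable_deriv hf.ftc hf.continuous.locallyIntegrable hφ hs

theorem exists_isH1 {ψ η : L2 m} (h : WeakDeriv ψ η) :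
    ∃ f : ℝ → EuclideanSpace ℂ (Fin m), IsH1 f η ∧ f =ᵐ[volume] ψ := by
  have hηl : LocallyIntegrable (η : ℝ → EuclideanSpace ℂ (Fin m)) volume :=
    (Lp.memLp η).locallyIntegrable (by norm_num)
  have hψl : LocallyIntegrable (ψ : ℝ → EuclideanSpace ℂ (Fin m)) volume :=
    (Lp.memLp ψ).locallyIntegrable (by norm_num)
  have hii : ∀ a b, IntervalIntegrable (η : ℝ → EuclideanSpace ℂ (Fin m)) volume a b :=
    fun a b => (hηl.integrableOn_isCompact isCompact_uIcc).intervalIntegrable
  set F : ℝ → EuclideanSpace ℂ (Fin m) := fun x => ∫ t in (0 : ℝ)..x, η t with hF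
  have hFc : Continuous F := intervalIntegral.continuous_primitive hii 0
  have hFtc : ∀ a b : ℝ, F b - F a = ∫ x in a..b, η x := fun a b =>
    intervalIntegral.integral_interval_sub_left (hii _ _) (hii _ _)
  have hFl : LocallyIntegrable F volume := hFc.locallyIntegrable
  obtain ⟨c, hc⟩ := const_of_deriv_zero (hψl.sub hFl) (fun φ hφ hs => by
    have hd : Continuous (deriv φ) := hφ.continuous_deriv (by simp)
    have I1 : Integrable (fun x => deriv φ x • ψ x) := integrable_test hψl hd hs.deriv
    have I2 : Integrable (fun x => deriv φ x • F x) := integrable_test hFl hd hs.deriv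
    have e : ∫ x, deriv φ x • ((ψ : ℝ → EuclideanSpace ℂ (Fin m)) - F) x
        = (∫ x, deriv φ x • ψ x) - ∫ x, deriv φ x • F x := by
      rw [← integral_sub I1 I2]
      congr 1
      funext x
      rw [Pi.sub_apply, smul_sub]
    rw [e, h φ hφ hs, ibp_vec hηl hFtc hFl hφ hs]
    abel)
  have hae : (fun x => F x + c) =ᵐ[volume] ψ := by
    filter_upwards [hc] with x hx
    rw [← hx, Pi.sub_apply]
    abel
  refine ⟨fun x => F x + c, ⟨(memLp_congr_ae hae).2 (Lp.memLp ψ), Lp.memLp η, fun a b => ?_⟩, hae⟩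
  rw [← hFtc a b]
  abel

end Vale.Agent.P371S
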