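import Mathlib

/-! # P371, second statement: the definitions

The Schrödinger operator is treated on the Hilbert space `L²(ℝ; ℂ^m)` of classes of functions,
`H¹` by weak derivatives against smooth compactly supported functions, powers of matrices by the
continuous functional calculus, and the sharp constant as the least admissible constant. -/

open MeasureTheory
open scoped ComplexOrder ContDiff InnerProductSpace

namespace Vale.Agent.P371S

/-- The Hilbert space `L²(ℝ; ℂ^m)`. -/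
abbrev L2 (m : ℕ) : Type := Lp (EuclideanSpace ℂ (Fin m)) 2 (volume : Measure ℝ)

/-- A function in the class `ψ`. -/
noncomputable abbrev fn {m : ℕ} (ψ : L2 m) : ℝ → EuclideanSpace ℂ (Fin m) := ψ

/-- The inner product of `L²(ℝ; ℂ^m)`. -/
noncomputable abbrev ip {m : ℕ} (χ ψ : L2 m) : ℂ := ⟪χ, ψ⟫_ℂ

/-- `η ∈ L²` is the weak derivative of `ψ ∈ L²`; `ψ ∈ H¹(ℝ; ℂ^m)` when there is such an `η`. -/
def WeakDeriv {m : ℕ} (ψ η : L2 m) : Prop :=
  ∀ φ : ℝ → ℝ, ContDiff ℝ ∞ φ → HasCompactSupport φ →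
    ∫ x, deriv φ x • fn ψ x = -∫ x, φ x • fn η x

/-- The potential energy form `∫ ⟨χ(x), W(x) ψ(x)⟩ dx`. -/
noncomputable def potForm {m : ℕ} (W : ℝ → Matrix (Fin m) (Fin m) ℂ) (χ ψ : L2 m) : ℂ :=
  ∫ x, ∑ i, ∑ j, star (fn χ x i) * W x i j * fn ψ x j

/-- `ψ` is in the kernel of `H_W - lam`, `H_W` the operator of the form
`∫ ‖ψ'‖² - ∫ ⟨ψ, W ψ⟩` on `H¹(ℝ; ℂ^m)`. -/
def InKernel {m : ℕ} (W : ℝ → Matrix (Fin m) (Fin m) ℂ) (lam : ℝ) (ψ : L2 m) : Prop :=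
  ∃ η : L2 m, WeakDeriv ψ η ∧ ∀ χ ξ : L2 m, WeakDeriv χ ξ →
    ip ξ η - potForm W χ ψ = (lam : ℂ) * ip χ ψ

/-- `∫ tr (W(x) ^ p) dx`, the power by functional calculus. -/
noncomputable def trInt {m : ℕ} (p : ℝ) (W : ℝ → Matrix (Fin m) (Fin m) ℂ) : ℝ :=
  ∫ x, (cfc (fun t : ℝ => t ^ p) (W x)).trace.re

/-- `W` is measurable, Hermitian positive semidefinite everywhere, and `tr (W ^ p)` is
integrable. -/
def IsPot {m : ℕ} (p : ℝ) (W : ℝ → Matrix (Fin m) (Fin m) ℂ) : Prop :=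
  (∀ i j, Measurable fun x => W x i j) ∧ (∀ x, (W x).PosSemidef) ∧
    Integrable fun x => (cfc (fun t : ℝ => t ^ p) (W x)).trace.re

/-- The constants `C` with `Tr (H_W)_-^γ ≤ C ∫ tr (W ^ (γ + 1/2))` for all `W` of size `m`: the
sum of `|lam j| ^ γ` over every finite orthonormal system of eigenvectors of `H_W` with negative
eigenvalues is at most `C ∫ tr (W ^ (γ + 1/2))`. The least one is `L_γ(m)`. -/
def LTConstants (γ : ℝ) (m : ℕ) : Set ℝ :=
  {C | ∀ W : ℝ → Matrix (Fin m) (Fin m) ℂ, IsPot (γ + 1 / 2) W →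
    ∀ (N : ℕ) (lam : Fin N → ℝ) (ψ : Fin N → L2 m), Orthonormal ℂ ψ →
      (∀ j, lam j < 0 ∧ InKernel W (lam j) (ψ j)) →
      ∑ j, |lam j| ^ γ ≤ C * trInt (γ + 1 / 2) W}

/-- The constants `C` with `|lam| ^ γ ≤ C ∫ W ^ (γ + 1/2)` for all scalar `W` and every negative
eigenvalue `lam` of `H_W`. The least one is `L_γ^{(1)}`. -/
def OneStateConstants (γ : ℝ) : Set ℝ :=
  {C | ∀ W : ℝ → Matrix (Fin 1) (Fin 1) ℂ, IsPot (γ + 1 / 2) W →
    ∀ (lam : ℝ) (ψ : L2 1), ‖ψ‖ = 1 → lam < 0 → InKernel W lam ψ →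
      |lam| ^ γ ≤ C * trInt (γ + 1 / 2) W}

end Vale.Agent.P371S
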