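import Vale.Agent.Lib.P371S.Stmt
import Vale.Agent.Lib.P371.WDeriv
import Vale.Agent.Lib.P371.H1

/-! # P371, second statement: weak derivatives and primitives -/

open MeasureTheory Set Filter Topology
open scoped ComplexOrder ContDiff InnerProductSpace
open Vale.Agent.P371 (HasW IsH1)

namespace Vale.Agent.P371S

variable {m : ℕ}

/-- a compactly supported function vanishes, with its derivative, outside some interval. -/
theorem exists_interval {φ : ℝ → ℝ} (hs : HasCompactSupport φ) :
    ∃ R : ℝ, 0 < R ∧ ∀ x, x ∉ Ioo (-R) R → φ x = 0 ∧ deriv φ x = 0 := by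
  obtain ⟨R, hR⟩ := hs.isCompact.isBounded.subset_closedBall (0 : ℝ)
  refine ⟨|R| + 1, by positivity, fun x hx => ?_⟩
  have h0 : x ∉ tsupport φ := by
    intro h
    have h1 : x ∈ Metric.closedBall (0 : ℝ) R := hR h
    rw [mem_closedBall_zero_iff, Real.norm_eq_abs] at h1
    refine hx ?_
    have h2 := abs_le.1 (h1.trans (le_abs_self R))
    exact ⟨by linarith [h2.1], by linarith [h2.2]⟩
  exact ⟨image_eq_zero_of_notMem_tsupport h0, by
    by_contra h
    exact h0 (support_deriv_subset h)⟩

/-- integration by parts against a test function. -/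
theorem ibp_test {f f' : ℝ → ℂ} (hf : HasW f f') {φ : ℝ → ℝ} (hφ : ContDiff ℝ ∞ φ)
    (hs : HasCompactSupport φ) :
    ∫ x, (f' x * ((φ x : ℝ) : ℂ) + f x * ((deriv φ x : ℝ) : ℂ)) = 0 := by
  have hd : Continuous (deriv φ) := hφ.continuous_deriv (by simp)
  have hφW : HasW (fun x => ((φ x : ℝ) : ℂ)) (fun x => ((deriv φ x : ℝ) : ℂ)) := by
    refine ⟨fun a b => (Complex.continuous_ofReal.comp hd).intervalIntegrable _ _,
      fun a b => ?_⟩
    rw [intervalIntegral.integral_ofReal, intervalIntegral.integral_deriv_eq_sub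
      (fun x _ => (hφ.differentiable (by simp)) x) (hd.intervalIntegrable _ _)]
    push_cast; ring
  obtain ⟨R, hR, hz⟩ := exists_interval hs
  have h := (hf.mul hφW).ftc (-R) R
  rw [(hz R (by simp)).1, (hz (-R) (by simp)).1] at h
  have e : ∫ x, (f' x * ((φ x : ℝ) : ℂ) + f x * ((deriv φ x : ℝ) : ℂ))
      = ∫ x in (-R)..R, (f' x * ((φ x : ℝ) : ℂ) + f x * ((deriv φ x : ℝ) : ℂ)) := by
    rw [intervalIntegral.integral_of_le (by linarith)]
    refine (setIntegral_eq_integral_of_forall_compl_eq_zero fun x hx => ?_).symm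
    have hx' : x ∉ Ioo (-R) R := fun h => hx (Ioo_subset_Ioc_self h)
    rw [(hz x hx').1, (hz x hx').2]
    simp
  rw [e, ← h]
  simp

/-- a test function times a locally integrable function is integrable. -/
theorem integrable_test {E : Type*} [NormedAddCommGroup E] [NormedSpace ℝ E] {f : ℝ → E}
    (hf : LocallyIntegrable f volume) {φ : ℝ → ℝ} (hc : Continuous φ)
    (hs : HasCompactSupport φ) : Integrable (fun x => φ x • f x) :=
  hf.integrable_smul_left_of_hasCompactSupport hc hs

theorem ibp_vec {f f' : ℝ → EuclideanSpace ℂ (Fin m)} (hloc : LocallyIntegrable f' volume)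
    (hf : ∀ a b : ℝ, f b - f a = ∫ x in a..b, f' x) (hfl : LocallyIntegrable f volume)
    {φ : ℝ → ℝ} (hφ : ContDiff ℝ ∞ φ) (hs : HasCompactSupport φ) :
    ∫ x, deriv φ x • f x = -∫ x, φ x • f' x := by
  have hd : Continuous (deriv φ) := hφ.continuous_deriv (by simp)
  have I1 : Integrable (fun x => deriv φ x • f x) := integrable_test hfl hd hs.deriv
  have I2 : Integrable (fun x => φ x • f' x) := integrable_test hloc hφ.continuous hs
  have hii : ∀ a b, IntervalIntegrable f' volume a b := fun a b =>
    (hloc.integrableOn_isCompact isCompact_uIcc).intervalIntegrable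
  rw [eq_neg_iff_add_eq_zero, ← integral_add I1 I2]
  have key : ∀ i : Fin m, (∫ x, (deriv φ x • f x + φ x • f' x)) i = 0 := by
    intro i
    have h1 := (EuclideanSpace.proj (𝕜 := ℂ) i).integral_comp_comm (I1.add I2)
    have h2 : (∫ x, (deriv φ x • f x + φ x • f' x)) i
        = ∫ x, (EuclideanSpace.proj (𝕜 := ℂ) i) (deriv φ x • f x + φ x • f' x) := h1.symm
    rw [h2]
    have hW : HasW (fun x => f x i) (fun x => f' x i) := by
      refine ⟨fun a b => ?_, fun a b => ?_⟩
      · exact ⟨(EuclideanSpace.proj (𝕜 := ℂ) i).integrable_comp (hii a b).1,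
          (EuclideanSpace.proj (𝕜 := ℂ) i).integrable_comp (hii a b).2⟩
      · have h3 := (EuclideanSpace.proj (𝕜 := ℂ) i).intervalIntegral_comp_comm (hii a b)
        have h4 : (f b - f a) i = (∫ x in a..b, f' x) i := by rw [hf a b]
        exact h4.trans h3.symm
    rw [← ibp_test hW hφ hs]
    congr 1
    funext x
    simp only [PiLp.proj_apply, PiLp.add_apply, PiLp.smul_apply, Complex.real_smul]
    ring
  ext i
  exact key i

end Vale.Agent.P371S
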